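import Vale.Agent.P335.H978.Defs
import Vale.Agent.P335.H586.Sharp
import Vale.Agent.P335.H586.BipSharp

/-!
# P335: the spectral gaps of the Curveball chains are attained
-/

namespace Vale.Agent.P335.H414

open Finset Vale.Agent.P335 Vale.Agent.P335.H586 Vale.Agent.P335.H978

theorem one_sub_div_aux {s : ℝ} (hs : 0 < s) (k : ℕ) : 1 / s * (s - (k : ℕ)) = 1 - (k : ℕ) / s := by
  field_simp

section Abstract

variable {Ω ι : Type*} [Fintype Ω]

open Classical in
/-- A mixture of uniform resamplings on a state space with two elements: the difference of the two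
indicators is an eigenfunction. -/
theorem two_action (S : Finset ι) (w : ℝ) (rel : ι → Ω → Ω → Prop) (P : Matrix Ω Ω ℝ)
    (hP : ∀ z z', P z z' = ∑ q ∈ S, w *
      (if rel q z z' then 1 / ((univ.filter fun K => rel q z K).card : ℝ) else 0))
    {x y : Ω} (hne : x ≠ y) (two : ∀ z, z = x ∨ z = y) (hr : ∀ q z, rel q z z)
    (hs : ∀ q, rel q x y ↔ rel q y x) (f : Ω → ℝ) (fx : f x = 1) (fy : f y = -1) (z : Ω) :
    ∑ z', P z z' * f z' =
      (w * ((S.card : ℝ) - ((S.filter fun q => rel q x y).card : ℝ))) * f z := by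
  have huniv : (univ : Finset Ω) = {x, y} := by
    ext z
    simpa using two z
  have hcard : ((S.card : ℝ) - ((S.filter fun q => rel q x y).card : ℝ)) =
      ∑ q ∈ S, (if rel q x y then (0 : ℝ) else 1) := by
    have h1 := Finset.card_filter_add_card_filter_not (s := S) (fun q => rel q x y)
    have h2 : (((S.filter fun q => rel q x y).card : ℝ)) +
        ((S.filter fun q => ¬ rel q x y).card : ℝ) = S.card := by exact_mod_cast h1
    rw [← h2, add_sub_cancel_left, Finset.card_filter]
    push_cast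
    refine Finset.sum_congr rfl fun q _ => ?_
    by_cases h : rel q x y <;> simp [h]
  rw [huniv, Finset.sum_pair hne, fx, fy, hP, hP, hcard]
  rw [Finset.mul_sum, Finset.sum_mul, Finset.sum_mul, Finset.sum_mul, ← Finset.sum_add_distrib]
  refine Finset.sum_congr rfl fun q _ => ?_
  rcases two z with rfl | rfl
  · rw [if_pos (hr q z), fx]
    by_cases h : rel q z y
    · have e : (univ.filter fun K => rel q z K) = {z, y} := by
        ext K
        rcases two K with rfl | rfl
        · simp [hr]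
        · simp [h]
      rw [if_pos h, if_pos h, e, Finset.card_pair hne]
      ring
    · have e : (univ.filter fun K => rel q z K) = {z} := by
        ext K
        rcases two K with rfl | rfl
        · simp [hr]
        · simp [h, hne.symm]
      rw [if_neg h, if_neg h, e, Finset.card_singleton]
      push_cast
      ring
  · rw [if_pos (hr q z), fy, hs q]
    by_cases h : rel q z x
    · have e : (univ.filter fun K => rel q z K) = {x, z} := by
        ext K
        rcases two K with rfl | rfl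
        · simp [h]
        · simp [hr]
      rw [if_pos h, if_pos h, e, Finset.card_pair hne]
      ring
    · have e : (univ.filter fun K => rel q z K) = {z} := by
        ext K
        rcases two K with rfl | rfl
        · simp [h, hne]
        · simp [hr]
      rw [if_neg h, if_neg h, e, Finset.card_singleton]
      push_cast
      ring

open Classical in
theorem pow_eigenOf {P : Matrix Ω Ω ℝ} {l : ℝ} {f : Ω → ℝ} (hf : EigenOf P l f) (t : ℕ)
    (x : Ω) : ∑ y, (P ^ t) x y * f y = l ^ t * f x := by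
  induction t generalizing x with
  | zero => simp [Matrix.one_apply]
  | succ t ih =>
    have e : ∀ y, (P ^ (t + 1)) x y * f y = ∑ k, P x k * ((P ^ t) k y * f y) := by
      intro y
      rw [pow_succ', Matrix.mul_apply, Finset.sum_mul]
      exact Finset.sum_congr rfl fun K _ => by ring
    simp_rw [e]
    rw [Finset.sum_comm]
    simp_rw [← Finset.mul_sum, ih]
    have e2 : ∀ k, P x k * (l ^ t * f k) = l ^ t * (P x k * f k) := by
      intro K; ring
    simp_rw [e2]
    rw [← Finset.mul_sum, hf.2 x]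
    ring

open Classical in
/-- An eigenfunction with values `±1` and mean zero gives a lower bound for the mixing time. -/
theorem lower_of_eigen {P : Matrix Ω Ω ℝ} {l : ℝ} {f : Ω → ℝ} (hf : EigenOf P l f)
    (habs : ∀ x, |f x| ≤ 1) (hmean : ∑ x, f x = 0) {x : Ω} (hx : f x = 1) (hl : -1 ≤ l)
    {t : ℕ} (h : WithinOf P (1 / 4) t) : 1 / 2 ≤ (t : ℝ) * (1 - l) := by
  have h1 := h x
  have h2 := pow_eigenOf hf t x
  rw [hx, mul_one] at h2
  set N : ℝ := (Fintype.card Ω : ℝ) with hN
  have h3 : ∑ y, ((P ^ t) x y - 1 / N) * f y = l ^ t := by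
    simp_rw [sub_mul]
    rw [Finset.sum_sub_distrib, h2, ← Finset.mul_sum, hmean]
    ring
  have h4 : l ^ t ≤ ∑ y, |(P ^ t) x y - 1 / N| := by
    rw [← h3]
    refine Finset.sum_le_sum fun y _ => ?_
    refine (le_abs_self _).trans ?_
    rw [abs_mul]
    exact mul_le_of_le_one_right (abs_nonneg _) (habs y)
  have h5 : 1 + (t : ℝ) * (-(1 - l)) ≤ (1 + -(1 - l)) ^ t :=
    one_add_mul_le_pow (by linarith) t
  have h6 : (1 + -(1 - l)) = l := by ring
  rw [h6] at h5
  linarith only [h1, h4, h5]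

end Abstract

section Graph

variable {n : ℕ} (hn : 4 ≤ n)

theorem agreeOff_iff {p : Fin n × Fin n} (hp : p.1 ≠ p.2) :
    AgreeOff p.1 p.2 (R1 hn).1 (R2 hn).1 ↔
      p ∈ ({(H586.vx hn 0, H586.vx hn 1), (H586.vx hn 1, H586.vx hn 0), (H586.vx hn 2, H586.vx hn 3), (H586.vx hn 3, H586.vx hn 2)} :
        Finset (Fin n × Fin n)) := by
  obtain ⟨g1, g2, g3, g4, g5⟩ := key hn (R1 hn).2
  obtain ⟨k1, k2, k3, k4, k5⟩ := key hn (R2 hn).2
  have a1 := R1_adj hn
  have a2 := R2_adj hn
  have m03 : ¬ (R1 hn).1.Adj (H586.vx hn 0) (H586.vx hn 3) := fun h => g3.1 h a1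
  have n03 : (R2 hn).1.Adj (H586.vx hn 0) (H586.vx hn 3) := k3.2 a2
  have m12 : ¬ (R1 hn).1.Adj (H586.vx hn 1) (H586.vx hn 2) := fun h => g4.1 h a1
  have n12 : (R2 hn).1.Adj (H586.vx hn 1) (H586.vx hn 2) := k4.2 a2
  have m13 : (R1 hn).1.Adj (H586.vx hn 1) (H586.vx hn 3) := g5.2 a1
  have n13 : ¬ (R2 hn).1.Adj (H586.vx hn 1) (H586.vx hn 3) := fun h => a2 (k5.1 h)
  simp only [Finset.mem_insert, Finset.mem_singleton]
  constructor
  · intro h
    have e02 : ¬ ((H586.vx hn 0 = p.1 ∨ H586.vx hn 0 = p.2) ↔ (H586.vx hn 2 = p.1 ∨ H586.vx hn 2 = p.2)) :=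
      fun h1 => a2 ((h _ _ h1).1 a1)
    have e03 : ¬ ((H586.vx hn 0 = p.1 ∨ H586.vx hn 0 = p.2) ↔ (H586.vx hn 3 = p.1 ∨ H586.vx hn 3 = p.2)) :=
      fun h1 => m03 ((h _ _ h1).2 n03)
    have e12 : ¬ ((H586.vx hn 1 = p.1 ∨ H586.vx hn 1 = p.2) ↔ (H586.vx hn 2 = p.1 ∨ H586.vx hn 2 = p.2)) :=
      fun h1 => m12 ((h _ _ h1).2 n12)
    by_cases h0 : H586.vx hn 0 = p.1 ∨ H586.vx hn 0 = p.2
    · have h2 : ¬ (H586.vx hn 2 = p.1 ∨ H586.vx hn 2 = p.2) := fun h2 => e02 ⟨fun _ => h2, fun _ => h0⟩
      have h1 : H586.vx hn 1 = p.1 ∨ H586.vx hn 1 = p.2 := by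
        by_contra hc
        exact e12 ⟨fun h3 => absurd h3 hc, fun h3 => absurd h3 h2⟩
      rcases pair_of (ne_vx hn (by decide : (0 : Fin 4) ≠ 1)) h0 h1 with h3 | h3
      · exact Or.inl h3
      · exact Or.inr (Or.inl h3)
    · have h2 : H586.vx hn 2 = p.1 ∨ H586.vx hn 2 = p.2 := by
        by_contra hc
        exact e02 ⟨fun h3 => absurd h3 h0, fun h3 => absurd h3 hc⟩
      have h1 : H586.vx hn 3 = p.1 ∨ H586.vx hn 3 = p.2 := by
        by_contra hc
        exact e03 ⟨fun h3 => absurd h3 h0, fun h3 => absurd h3 hc⟩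
      rcases pair_of (ne_vx hn (by decide : (2 : Fin 4) ≠ 3)) h2 h1 with h3 | h3
      · exact Or.inr (Or.inr (Or.inl h3))
      · exact Or.inr (Or.inr (Or.inr h3))
  · intro hp' u v huv
    by_cases hu : u.val < 4
    swap
    · exact ⟨fun h1 => absurd h1 (no_adj (R1 hn).2 hu), fun h1 => absurd h1 (no_adj (R2 hn).2 hu)⟩
    by_cases hv : v.val < 4
    swap
    · exact ⟨fun h1 => absurd h1.symm (no_adj (R1 hn).2 hv),
        fun h1 => absurd h1.symm (no_adj (R2 hn).2 hv)⟩
    obtain ⟨k, rfl⟩ := eq_vx hn hu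
    obtain ⟨l, rfl⟩ := eq_vx hn hv
    have hkl : ((k = 0 ∨ k = 1) ↔ (l = 0 ∨ l = 1)) := by
      rcases hp' with rfl | rfl | rfl | rfl
      · simpa only [H586.vx_inj] using huv
      · simp only [H586.vx_inj] at huv
        rw [or_comm, @or_comm (l = 0)]
        exact huv
      · simp only [H586.vx_inj] at huv
        revert huv
        clear hp hu hv
        revert k l
        decide
      · simp only [H586.vx_inj] at huv
        revert huv
        clear hp hu hv
        revert k l
        decide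
    have hcase : k = l ∨ (k = 0 ∧ l = 1) ∨ (k = 1 ∧ l = 0) ∨ (k = 2 ∧ l = 3) ∨
        (k = 3 ∧ l = 2) := by
      clear hp hp' huv hu hv
      revert k l
      decide
    rcases hcase with rfl | ⟨rfl, rfl⟩ | ⟨rfl, rfl⟩ | ⟨rfl, rfl⟩ | ⟨rfl, rfl⟩
    · exact ⟨fun h1 => absurd h1 ((R1 hn).1.irrefl), fun h1 => absurd h1 ((R2 hn).1.irrefl)⟩
    · exact ⟨fun _ => k1, fun _ => g1⟩
    · exact ⟨fun _ => k1.symm, fun _ => g1.symm⟩
    · exact ⟨fun h1 => absurd h1 g2, fun h1 => absurd h1 k2⟩
    · exact ⟨fun h1 => absurd h1.symm g2, fun h1 => absurd h1.symm k2⟩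

open Classical in
theorem card_agree : ((univ : Finset (Fin n)).offDiag.filter fun q =>
    AgreeOff q.1 q.2 (R1 hn).1 (R2 hn).1).card = 4 := by
  have e : ((univ : Finset (Fin n)).offDiag.filter fun q =>
      AgreeOff q.1 q.2 (R1 hn).1 (R2 hn).1) =
      {(H586.vx hn 0, H586.vx hn 1), (H586.vx hn 1, H586.vx hn 0), (H586.vx hn 2, H586.vx hn 3), (H586.vx hn 3, H586.vx hn 2)} := by
    ext p
    rw [Finset.mem_filter, Finset.mem_offDiag]
    constructor
    · rintro ⟨⟨_, _, hp⟩, h⟩
      exact (agreeOff_iff hn hp).1 h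
    · intro h
      have hp : p.1 ≠ p.2 := by
        simp only [Finset.mem_insert, Finset.mem_singleton] at h
        rcases h with rfl | rfl | rfl | rfl <;> exact ne_vx hn (by decide)
      exact ⟨⟨Finset.mem_univ _, Finset.mem_univ _, hp⟩, (agreeOff_iff hn hp).2 h⟩
  rw [e, Finset.card_insert_of_notMem, Finset.card_insert_of_notMem, Finset.card_insert_of_notMem,
    Finset.card_singleton]
  all_goals
    simp only [Finset.mem_insert, Finset.mem_singleton, Prod.mk.injEq, H586.vx_inj]
    decide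

theorem agreeOff_refl (a c : Fin n) (G : SimpleGraph (Fin n)) : AgreeOff a c G G :=
  fun _ _ _ => Iff.rfl

theorem agreeOff_symm {a c : Fin n} {G H : SimpleGraph (Fin n)} :
    AgreeOff a c G H ↔ AgreeOff a c H G :=
  ⟨fun h u v huv => (h u v huv).symm, fun h u v huv => (h u v huv).symm⟩

theorem card_offDiag_fin (n : ℕ) :
    (((univ : Finset (Fin n)).offDiag.card : ℕ) : ℝ) = (n : ℝ) * (n - 1) := by
  rw [Finset.offDiag_card, Finset.card_univ, Fintype.card_fin, Nat.cast_sub (Nat.le_mul_self n)]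
  push_cast
  ring

include hn in
theorem nn_ge : (12 : ℝ) ≤ (n : ℝ) * (n - 1) := by
  have : (4 : ℝ) ≤ n := by exact_mod_cast hn
  nlinarith

open Classical in
theorem ef_abs (G : Realization (d0 n)) : |ef hn G| ≤ 1 := by
  unfold ef
  split_ifs <;> simp

open Classical in
theorem ef_mean : ∑ G, ef hn G = 0 := by
  rw [sum_two hn, ef1, ef2]
  ring

open Classical in
/-- **The gap of the Curveball chain is attained.** -/
theorem curveball_eigen : EigenOf (curveball (d0 n)) (1 - 4 / ((n : ℝ) * (n - 1))) (ef hn) := by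
  have h12 := nn_ge hn
  constructor
  · intro h
    have := congrFun h (R1 hn)
    rw [ef1] at this
    simp at this
  · intro G
    have h := two_action (univ : Finset (Fin n)).offDiag (1 / ((n : ℝ) * (n - 1)))
      (fun q (G H : Realization (d0 n)) => AgreeOff q.1 q.2 G.1 H.1) (curveball (d0 n))
      (fun z z' => rfl) (R_ne hn) (R_cases hn) (fun q z => agreeOff_refl _ _ _)
      (fun q => agreeOff_symm) (ef hn) (ef1 hn) (ef2 hn) G
    rw [h, card_agree hn, card_offDiag_fin]
    congr 1
    exact one_sub_div_aux (by linarith) 4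

include hn in
open Classical in
/-- The mixing time of the Curveball chain for `d0` is at least `n (n - 1) / 8`. -/
theorem curveball_lower {t : ℕ} (h : WithinOf (curveball (d0 n)) (1 / 4) t) :
    n * (n - 1) ≤ 8 * t := by
  have h12 := nn_ge hn
  have h1 : 4 / ((n : ℝ) * (n - 1)) ≤ 1 := by
    rw [div_le_one (by linarith)]
    linarith
  have h2 := lower_of_eigen (curveball_eigen hn) (ef_abs hn) (ef_mean hn) (ef1 hn)
    (by linarith) h
  have h3 : (t : ℝ) * (1 - (1 - 4 / ((n : ℝ) * (n - 1)))) = 4 * t / ((n : ℝ) * (n - 1)) := by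
    ring
  rw [h3, le_div_iff₀ (by linarith)] at h2
  have h4 : (n : ℝ) * ((n - 1 : ℕ) : ℝ) ≤ 8 * t := by
    rw [Nat.cast_sub (by omega)]
    push_cast
    linarith
  exact_mod_cast h4

end Graph

section Bip

variable {a b : ℕ} (ha : 2 ≤ a) (hb : 2 ≤ b)

theorem rowsAgree_iff {p : Fin a × Fin a} :
    RowsAgree p.1 p.2 (M1 ha hb).1 (M2 ha hb).1 ↔
      p ∈ ({(z0 ha, z1 ha), (z1 ha, z0 ha)} : Finset (Fin a × Fin a)) := by
  simp only [Finset.mem_insert, Finset.mem_singleton]
  constructor
  · intro h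
    have h0 : z0 ha = p.1 ∨ z0 ha = p.2 := by
      by_contra hc
      rw [not_or] at hc
      have := congrFun (h _ hc.1 hc.2) (z0 hb)
      rw [M1_00, M2_00] at this
      exact absurd this (by decide)
    have h1 : z1 ha = p.1 ∨ z1 ha = p.2 := by
      by_contra hc
      rw [not_or] at hc
      have := congrFun (h _ hc.1 hc.2) (z1 hb)
      rw [M1_11, M2_11] at this
      exact absurd this (by decide)
    exact pair_of (z_ne ha) h0 h1
  · intro h l h1 h2
    have hl : ¬ l.val < 2 := by
      rcases z_cases ha l with h3 | h3 | h3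
      · rcases h with rfl | rfl
        · exact absurd h3 h1
        · exact absurd h3 h2
      · rcases h with rfl | rfl
        · exact absurd h3 h2
        · exact absurd h3 h1
      · exact h3
    funext j
    rw [row_false hl, row_false hl]

open Classical in
theorem card_rows : ((univ : Finset (Fin a)).offDiag.filter fun q =>
    RowsAgree q.1 q.2 (M1 ha hb).1 (M2 ha hb).1).card = 2 := by
  have e : ((univ : Finset (Fin a)).offDiag.filter fun q =>
      RowsAgree q.1 q.2 (M1 ha hb).1 (M2 ha hb).1) = {(z0 ha, z1 ha), (z1 ha, z0 ha)} := by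
    ext p
    rw [Finset.mem_filter, Finset.mem_offDiag]
    constructor
    · rintro ⟨_, h⟩
      exact (rowsAgree_iff ha hb).1 h
    · intro h
      refine ⟨⟨Finset.mem_univ _, Finset.mem_univ _, ?_⟩, (rowsAgree_iff ha hb).2 h⟩
      simp only [Finset.mem_insert, Finset.mem_singleton] at h
      rcases h with rfl | rfl
      · exact z_ne ha
      · exact (z_ne ha).symm
  rw [e, Finset.card_pair]
  intro h
  exact z_ne ha (congrArg Prod.fst h)

include ha in
theorem aa_ge : (2 : ℝ) ≤ (a : ℝ) * (a - 1) := by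
  have : (2 : ℝ) ≤ a := by exact_mod_cast ha
  nlinarith

open Classical in
theorem ef'_abs (M : Margins (m0 a) (m0 b)) : |ef' ha hb M| ≤ 1 := by
  unfold ef'
  split_ifs <;> simp

open Classical in
theorem ef'_mean : ∑ M, ef' ha hb M = 0 := by
  rw [sum_two' ha hb, ef'1, ef'2]
  ring

open Classical in
/-- **The gap of the bipartite Curveball chain is attained.** -/
theorem bipCurveball_eigen :
    EigenOf (bipCurveball (m0 a) (m0 b)) (1 - 2 / ((a : ℝ) * (a - 1))) (ef' ha hb) := by
  have h12 := aa_ge ha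
  constructor
  · intro h
    have := congrFun h (M1 ha hb)
    rw [ef'1] at this
    simp at this
  · intro G
    have h := two_action (univ : Finset (Fin a)).offDiag (1 / ((a : ℝ) * (a - 1)))
      (fun q (M N : Margins (m0 a) (m0 b)) => RowsAgree q.1 q.2 M.1 N.1)
      (bipCurveball (m0 a) (m0 b)) (fun z z' => rfl) (M_ne ha hb) (M_cases ha hb)
      (fun q z l _ _ => rfl)
      (fun q => ⟨fun h l h1 h2 => (h l h1 h2).symm, fun h l h1 h2 => (h l h1 h2).symm⟩)
      (ef' ha hb) (ef'1 ha hb) (ef'2 ha hb) G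
    rw [h, card_rows ha hb, card_offDiag_fin]
    congr 1
    exact one_sub_div_aux (by linarith) 2

open Classical in
include ha hb in
/-- The mixing time of the bipartite Curveball chain for the margins `m0` is at least
`a (a - 1) / 4`. -/
theorem bipCurveball_lower {t : ℕ} (h : WithinOf (bipCurveball (m0 a) (m0 b)) (1 / 4) t) :
    a * (a - 1) ≤ 4 * t := by
  have h12 := aa_ge ha
  have h1 : 2 / ((a : ℝ) * (a - 1)) ≤ 1 := by
    rw [div_le_one (by linarith)]
    linarith
  have h2 := lower_of_eigen (bipCurveball_eigen ha hb) (ef'_abs ha hb) (ef'_mean ha hb)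
    (ef'1 ha hb) (by linarith) h
  have h3 : (t : ℝ) * (1 - (1 - 2 / ((a : ℝ) * (a - 1)))) = 2 * t / ((a : ℝ) * (a - 1)) := by
    ring
  rw [h3, le_div_iff₀ (by linarith)] at h2
  have h4 : (a : ℝ) * ((a - 1 : ℕ) : ℝ) ≤ 4 * t := by
    rw [Nat.cast_sub (by omega)]
    push_cast
    linarith
  exact_mod_cast h4

end Bip

end Vale.Agent.P335.H414
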